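import Vale.Agent.P036.Graphs

/-! P036: Heilbronn's bound for point sets covered by few convex or concave graphs. -/

namespace Vale.Agent.Results.P036.CurveCoveredSets

open Finset Vale.Agent.P036

theorem result :
    ∃ C : ℝ, 0 < C ∧
      ∀ (P : Finset (ℝ × ℝ)) (L : ℕ) (f : Fin L → ℝ → ℝ),
        (∀ p ∈ P, p.1 ∈ Set.Icc (0:ℝ) 1 ∧ p.2 ∈ Set.Icc (0:ℝ) 1) →
        (∀ j, ConvexOn ℝ (Set.Icc 0 1) (f j) ∨ ConcaveOn ℝ (Set.Icc 0 1) (f j)) →
        (∀ p ∈ P, ∃ j, p.2 = f j p.1 ∨ p.1 = f j p.2) →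
        6 * L ≤ P.card → P.Nonempty →
        ∃ p ∈ P, ∃ q ∈ P, ∃ r ∈ P, p ≠ q ∧ q ≠ r ∧ p ≠ r ∧
          |(q.1 - p.1) * (r.2 - p.2) - (q.2 - p.2) * (r.1 - p.1)| / 2
              ≤ C * ((L : ℝ) / P.card) ^ 3 ∧
          (L ^ 3 ≤ P.card →
            |(q.1 - p.1) * (r.2 - p.2) - (q.2 - p.2) * (r.1 - p.1)| / 2
              ≤ C / (P.card : ℝ) ^ 2) := by
  refine ⟨48 ^ 3, by positivity, ?_⟩
  intro P L f hbox hf hcov hcard hne
  classical
  have hn : 0 < P.card := hne.card_pos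
  have hL : 0 < L := by
    rcases Nat.eq_zero_or_pos L with h | h
    · obtain ⟨p, hp⟩ := hne
      obtain ⟨j, -⟩ := hcov p hp
      exact absurd j.2 (by omega)
    · exact h
  let A : Fin L → Finset (ℝ × ℝ) := fun j => P.filter fun p => p.2 = f j p.1
  let B : Fin L → Finset (ℝ × ℝ) := fun j => P.filter fun p => p.1 = f j p.2
  have hsum : P.card ≤ ∑ j, ((A j).card + (B j).card) := by
    have hsub : P ⊆ (univ : Finset (Fin L)).biUnion fun j => A j ∪ B j := by
      intro p hp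
      obtain ⟨j, hj⟩ := hcov p hp
      simp only [A, B, mem_biUnion, mem_union, mem_filter, mem_univ, true_and]
      exact ⟨j, hj.imp (fun h => ⟨hp, h⟩) fun h => ⟨hp, h⟩⟩
    exact (card_le_card hsub).trans
      (card_biUnion_le.trans (sum_le_sum fun j _ => card_union_le _ _))
  obtain ⟨j, -, hj⟩ := exists_le_of_sum_le (s := (univ : Finset (Fin L)))
    (f := fun _ => (P.card : ℝ) / L) (g := fun j => (((A j).card + (B j).card : ℕ) : ℝ))
    ⟨⟨0, hL⟩, mem_univ _⟩
    (by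
      rw [sum_const, card_univ, Fintype.card_fin, nsmul_eq_mul, mul_div_cancel₀ _ (by positivity)]
      exact_mod_cast hsum)
  have hLR : (0:ℝ) < L := by exact_mod_cast hL
  have hnR : (0:ℝ) < P.card := by exact_mod_cast hn
  rw [div_le_iff₀ hLR] at hj
  have fin : ∀ p ∈ P, ∀ q ∈ P, ∀ r ∈ P, p ≠ q → q ≠ r → p ≠ r → ∀ m : ℕ,
      (P.card : ℝ) ≤ 2 * m * L →
      |(q.1 - p.1) * (r.2 - p.2) - (q.2 - p.2) * (r.1 - p.1)| ≤ (24 / (m : ℝ)) ^ 3 →
      ∃ p ∈ P, ∃ q ∈ P, ∃ r ∈ P, p ≠ q ∧ q ≠ r ∧ p ≠ r ∧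
          |(q.1 - p.1) * (r.2 - p.2) - (q.2 - p.2) * (r.1 - p.1)| / 2
              ≤ (48 ^ 3 : ℝ) * ((L : ℝ) / P.card) ^ 3 ∧
          (L ^ 3 ≤ P.card →
            |(q.1 - p.1) * (r.2 - p.2) - (q.2 - p.2) * (r.1 - p.1)| / 2
              ≤ (48 ^ 3 : ℝ) / (P.card : ℝ) ^ 2) := by
    intro p hp q hq r hr h1 h2 h3 m hm hb
    have hm0 : (0:ℝ) < m := by
      rcases Nat.eq_zero_or_pos m with h | h
      · rw [h] at hm
        push_cast at hm
        linarith
      · exact_mod_cast h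
    have hstep : (24 / (m:ℝ)) ≤ 48 * ((L:ℝ) / P.card) := by
      rw [← mul_div_assoc, div_le_div_iff₀ hm0 hnR]
      nlinarith
    have hmain : |(q.1 - p.1) * (r.2 - p.2) - (q.2 - p.2) * (r.1 - p.1)| / 2
        ≤ (48 ^ 3 : ℝ) * ((L : ℝ) / P.card) ^ 3 := by
      rw [← mul_pow]
      have := pow_le_pow_left₀ (by positivity) hstep 3
      linarith [abs_nonneg ((q.1 - p.1) * (r.2 - p.2) - (q.2 - p.2) * (r.1 - p.1))]
    refine ⟨p, hp, q, hq, r, hr, h1, h2, h3, hmain, fun hL3 => hmain.trans ?_⟩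
    have h4 : (L:ℝ) ^ 3 ≤ P.card := by exact_mod_cast hL3
    rw [div_pow, ← mul_div_assoc, div_le_div_iff₀ (by positivity) (by positivity)]
    nlinarith [pow_pos hnR 2, mul_le_mul_of_nonneg_left h4 (pow_pos hnR 2).le]
  rcases le_total (B j).card (A j).card with hAB | hAB
  · have hm : (P.card : ℝ) ≤ 2 * (A j).card * L := by
      have : (((A j).card + (B j).card : ℕ) : ℝ) ≤ 2 * (A j).card := by
        exact_mod_cast (by omega : (A j).card + (B j).card ≤ 2 * (A j).card)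
      nlinarith
    have hinj : Set.InjOn Prod.fst (A j : Set (ℝ × ℝ)) := by
      intro p hp q hq h
      simp only [A, coe_filter, Set.mem_ofPred_eq] at hp hq
      exact Prod.ext h (by rw [hp.2, hq.2, h])
    have hc : ((A j).image Prod.fst).card = (A j).card := card_image_of_injOn hinj
    have h3 : 3 ≤ (A j).card := by
      have h6 : (6:ℝ) * L ≤ P.card := by exact_mod_cast hcard
      have : (3:ℝ) ≤ (A j).card := by nlinarith
      exact_mod_cast this
    have hmemA : ∀ s ∈ (A j).image Prod.fst, (s, f j s) ∈ P := by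
      intro s hs
      simp only [A, mem_image, mem_filter] at hs
      obtain ⟨p, ⟨hp, he⟩, rfl⟩ := hs
      rw [← he]
      exact hp
    obtain ⟨u, hu, v, hv, w, hw, huv, hvw, hb⟩ := graph_thin' ((A j).image Prod.fst) (f j) (hf j)
      (fun s hs => (hbox _ (hmemA s hs)).1) (fun s hs => (hbox _ (hmemA s hs)).2)
      (by rw [hc]; exact h3)
    rw [hc] at hb
    exact fin _ (hmemA u hu) _ (hmemA v hv) _ (hmemA w hw)
      (fun h => huv.ne (congrArg Prod.fst h)) (fun h => hvw.ne (congrArg Prod.fst h))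
      (fun h => (huv.trans hvw).ne (congrArg Prod.fst h)) _ hm hb
  · have hm : (P.card : ℝ) ≤ 2 * (B j).card * L := by
      have : (((A j).card + (B j).card : ℕ) : ℝ) ≤ 2 * (B j).card := by
        exact_mod_cast (by omega : (A j).card + (B j).card ≤ 2 * (B j).card)
      nlinarith
    have hinj : Set.InjOn Prod.snd (B j : Set (ℝ × ℝ)) := by
      intro p hp q hq h
      simp only [B, coe_filter, Set.mem_ofPred_eq] at hp hq
      exact Prod.ext (by rw [hp.2, hq.2, h]) h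
    have hc : ((B j).image Prod.snd).card = (B j).card := card_image_of_injOn hinj
    have h3 : 3 ≤ (B j).card := by
      have h6 : (6:ℝ) * L ≤ P.card := by exact_mod_cast hcard
      have : (3:ℝ) ≤ (B j).card := by nlinarith
      exact_mod_cast this
    have hmemB : ∀ s ∈ (B j).image Prod.snd, (f j s, s) ∈ P := by
      intro s hs
      simp only [B, mem_image, mem_filter] at hs
      obtain ⟨p, ⟨hp, he⟩, rfl⟩ := hs
      rw [← he]
      exact hp
    obtain ⟨u, hu, v, hv, w, hw, huv, hvw, hb⟩ := graph_thin' ((B j).image Prod.snd) (f j) (hf j)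
      (fun s hs => (hbox _ (hmemB s hs)).2) (fun s hs => (hbox _ (hmemB s hs)).1)
      (by rw [hc]; exact h3)
    rw [hc] at hb
    refine fin _ (hmemB u hu) _ (hmemB v hv) _ (hmemB w hw)
      (fun h => huv.ne (congrArg Prod.snd h)) (fun h => hvw.ne (congrArg Prod.snd h))
      (fun h => (huv.trans hvw).ne (congrArg Prod.snd h)) _ hm (le_of_eq_of_le ?_ hb)
    rw [← abs_neg]
    congr 1
    dsimp only
    ring

end Vale.Agent.Results.P036.CurveCoveredSets
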